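import Vale.Agent.P092.H357.Sep1
import Vale.Agent.P092.H714.TSepI
import Vale.Agent.P092.H538.Fst

/-!
P092 (helper357), Team C, block C-SEP2, part 2: the separation estimate of the first leg with
coefficients in the second leg, over a probability space.
-/

set_option linter.all false

open scoped InnerProductSpace ENNReal
open Filter Topology ContinuousLinearMap MeasureTheory

namespace Vale.Agent.P092.H357

open Vale.Agent.P092.H160 Vale.Agent.P092.H553 Vale.Agent.P092.H432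
open Vale.Agent.P092.H132 (Base TRep massX)
open Vale.Agent.P092.H790 (CData Ri baseL ept ept_ae ind_ae ri_ae fld_comp ae_comp lxt_ind_ept
  const_ae MEData lxt)
open Vale.Agent.P092.H714 (SepT EscT massA cs_sqrt)
open Vale.Agent.P092.H538 (fst sc2 re2 im2 massX_fst trep_fst)

section bd

variable {X : Type} [MeasurableSpace X] (μ : Measure X) [IsProbabilityMeasure μ]
  (Γ Q ι : Type) [Group Γ] [Countable Γ] [Group Q] [Countable Q] [Fintype ι]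

/-- Fields of bounded vectors. -/
def BdL2 : Set (Lp (Ell2 ((Γ × Q) × ι)) 2 μ) :=
  {ξ | ∀ᵐ x ∂μ, B2 (ξ x : Ell2 ((Γ × Q) × ι))}

variable {μ Γ Q ι}

theorem bdl2_norm {ξ : Lp (Ell2 ((Γ × Q) × ι)) 2 μ} (h : ξ ∈ BdL2 μ Γ Q ι) : ‖ξ‖ ≤ 1 := by
  have h0 : ∀ᵐ x ∂μ, ‖(ξ x : Ell2 ((Γ × Q) × ι))‖ ≤ 1 := by
    have h0' : ∀ᵐ x ∂μ, B2 (ξ x : Ell2 ((Γ × Q) × ι)) := h
    filter_upwards [h0'] with x hx
    exact hx.norm_le
  have h1 := Lp.norm_le_of_ae_bound (p := 2) zero_le_one h0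
  simpa [measureUnivNNReal] using h1

/-- the translates of `1_S ε_i` -/
theorem lxt_ind_ae (s : Γ × Q) {S : Set X} (hS : MeasurableSet S) (i : ι) :
    ∀ᵐ x ∂μ, ((baseL μ (Γ × Q) ι).lx s (H790.ind μ _ S ((baseL μ (Γ × Q) ι).ep i)) :
      Lp (Ell2 ((Γ × Q) × ι)) 2 μ) x = S.indicator (fun _ => (dl (s, i) : Ell2 ((Γ × Q) × ι))) x := by
  have e : (baseL μ (Γ × Q) ι).lx s (H790.ind μ _ S ((baseL μ (Γ × Q) ι).ep i)) =
      H790.ind μ _ S (Lp.constL 2 μ ℂ (dl (s, i) : Ell2 ((Γ × Q) × ι))) := lxt_ind_ept s hS i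
  rw [e]
  filter_upwards [ind_ae hS (Lp.constL 2 μ ℂ (dl (s, i) : Ell2 ((Γ × Q) × ι))),
    const_ae (μ := μ) (dl (s, i) : Ell2 ((Γ × Q) × ι))] with x h1 h2
  rw [h1]
  by_cases hx : x ∈ S
  · rw [Set.indicator_of_mem hx, Set.indicator_of_mem hx, h2]
  · rw [Set.indicator_of_notMem hx, Set.indicator_of_notMem hx]

theorem bdl2_comb (s : Γ) (t t' : Q) {S : Set X} (hS : MeasurableSet S) (i : ι) {c c' : ℂ}
    (hc : ‖c‖ ≤ 2⁻¹) (hc' : c' = 1 ∨ c' = -1) :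
    (c • ((baseL μ (Γ × Q) ι).lx (s, t) (H790.ind μ _ S ((baseL μ (Γ × Q) ι).ep i)) +
      c' • (baseL μ (Γ × Q) ι).lx (s, t') (H790.ind μ _ S ((baseL μ (Γ × Q) ι).ep i))) :
        Lp (Ell2 ((Γ × Q) × ι)) 2 μ) ∈ BdL2 μ Γ Q ι := by
  obtain ⟨u, hu⟩ : ∃ u : Lp (Ell2 ((Γ × Q) × ι)) 2 μ,
    u = (baseL μ (Γ × Q) ι).lx (s, t) (H790.ind μ _ S ((baseL μ (Γ × Q) ι).ep i)) := ⟨_, rfl⟩
  obtain ⟨v, hv⟩ : ∃ v : Lp (Ell2 ((Γ × Q) × ι)) 2 μ,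
    v = (baseL μ (Γ × Q) ι).lx (s, t') (H790.ind μ _ S ((baseL μ (Γ × Q) ι).ep i)) := ⟨_, rfl⟩
  rw [← hu, ← hv]
  change ∀ᵐ x ∂μ, _
  have hu' := lxt_ind_ae (μ := μ) (s, t) hS i
  have hv' := lxt_ind_ae (μ := μ) (s, t') hS i
  rw [← hu] at hu'
  rw [← hv] at hv'
  filter_upwards [hu', hv', Lp.coeFn_smul c (u + c' • v), Lp.coeFn_add u (c' • v),
    Lp.coeFn_smul c' v] with x h1 h2 h3 h4 h5
  rw [h3, Pi.smul_apply, h4, Pi.add_apply, h5, Pi.smul_apply, h1, h2]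
  by_cases hx : x ∈ S
  · rw [Set.indicator_of_mem hx, Set.indicator_of_mem hx]
    rcases hc' with rfl | rfl
    · rw [one_smul]
      exact b2_half (b2_dl s t i) (b2_dl s t' i) hc
    · rw [neg_smul, one_smul]
      exact b2_half (b2_dl s t i) (b2_neg (b2_dl s t' i)) hc
  · rw [Set.indicator_of_notMem hx, Set.indicator_of_notMem hx, smul_zero, add_zero, smul_zero]
    exact b2_zero

theorem bdl2_ep (s : Γ) (a : Lp (Ell2 ((Γ × Q) × ι)) 2 μ →L[ℂ] Lp (Ell2 ((Γ × Q) × ι)) 2 μ)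
    (ha : a ∈ (fst (baseL μ (Γ × Q) ι)).sc) (i : ι) :
    (fst (baseL μ (Γ × Q) ι)).lx s (a ((fst (baseL μ (Γ × Q) ι)).ep i)) ∈ BdL2 μ Γ Q ι := by
  obtain ⟨b, ⟨S, hS, rfl⟩, t, h⟩ := ha
  have hlx : ∀ t : Q, (baseL μ (Γ × Q) ι).lx (s, 1) ((baseL μ (Γ × Q) ι).lx ((1 : Γ), t)
      (H790.ind μ _ S ((baseL μ (Γ × Q) ι).ep i))) =
      (baseL μ (Γ × Q) ι).lx (s, t) (H790.ind μ _ S ((baseL μ (Γ × Q) ι).ep i)) := by
    intro t
    rw [H538.lx_split (baseL μ (Γ × Q) ι) s t]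
    rfl
  rcases h with rfl | rfl
  · have e : (fst (baseL μ (Γ × Q) ι)).lx s ((re2 (baseL μ (Γ × Q) ι) t *
        H790.ind μ (Ell2 ((Γ × Q) × ι)) S :
          Lp (Ell2 ((Γ × Q) × ι)) 2 μ →L[ℂ] Lp (Ell2 ((Γ × Q) × ι)) 2 μ)
        ((fst (baseL μ (Γ × Q) ι)).ep i)) =
        (2⁻¹ : ℂ) • ((baseL μ (Γ × Q) ι).lx (s, t)
          (H790.ind μ _ S ((baseL μ (Γ × Q) ι).ep i)) +
        (1 : ℂ) • (baseL μ (Γ × Q) ι).lx (s, t⁻¹)
          (H790.ind μ _ S ((baseL μ (Γ × Q) ι).ep i))) := by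
      change (baseL μ (Γ × Q) ι).lx (s, 1) (re2 (baseL μ (Γ × Q) ι) t (H790.ind μ _ S
        ((baseL μ (Γ × Q) ι).ep i))) = _
      rw [re2, smul_apply, add_apply, map_smul, map_add, hlx, hlx, one_smul]
    rw [e]
    exact bdl2_comb s t t⁻¹ hS i (by norm_num) (Or.inl rfl)
  · have e : (fst (baseL μ (Γ × Q) ι)).lx s ((im2 (baseL μ (Γ × Q) ι) t *
        H790.ind μ (Ell2 ((Γ × Q) × ι)) S :
          Lp (Ell2 ((Γ × Q) × ι)) 2 μ →L[ℂ] Lp (Ell2 ((Γ × Q) × ι)) 2 μ)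
        ((fst (baseL μ (Γ × Q) ι)).ep i)) =
        (Complex.I * 2⁻¹ : ℂ) • ((baseL μ (Γ × Q) ι).lx (s, t)
          (H790.ind μ _ S ((baseL μ (Γ × Q) ι).ep i)) +
        (-1 : ℂ) • (baseL μ (Γ × Q) ι).lx (s, t⁻¹)
          (H790.ind μ _ S ((baseL μ (Γ × Q) ι).ep i))) := by
      change (baseL μ (Γ × Q) ι).lx (s, 1) (im2 (baseL μ (Γ × Q) ι) t (H790.ind μ _ S
        ((baseL μ (Γ × Q) ι).ep i))) = _
      rw [im2, smul_apply, sub_apply, map_smul, map_sub, hlx, hlx, neg_smul, one_smul,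
        sub_eq_add_neg]
    rw [e]
    refine bdl2_comb s t t⁻¹ hS i ?_ (Or.inr rfl)
    rw [norm_mul, Complex.norm_I, one_mul]
    norm_num

theorem bdl2_mp {F : Γ → ℝ} (hF : ∀ g, |F g| ≤ 1) {ξ : Lp (Ell2 ((Γ × Q) × ι)) 2 μ}
    (h : ξ ∈ BdL2 μ Γ Q ι) : (fst (baseL μ (Γ × Q) ι)).mp F ξ ∈ BdL2 μ Γ Q ι := by
  change ∀ᵐ x ∂μ, _
  have h0 : ∀ᵐ x ∂μ, B2 (ξ x : Ell2 ((Γ × Q) × ι)) := h
  filter_upwards [fld_comp (μ := μ) (mp ι (fun x : Γ × Q => F x.1) :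
    Ell2 ((Γ × Q) × ι) →L[ℂ] Ell2 ((Γ × Q) × ι)) ξ, h0] with x h1 h2
  change B2 (((mp ι (fun x : Γ × Q => F x.1) :
    Ell2 ((Γ × Q) × ι) →L[ℂ] Ell2 ((Γ × Q) × ι)).compLpL 2 μ ξ) x)
  rw [h1]
  exact h2.mp hF

end bd

section sep

variable {D Λ Γ Q ι : Type} [Group D] [Group Λ] [Countable Λ] [Group Γ] [Countable Γ] [Group Q]
  [Countable Q] [Fintype ι] {t : ℝ}
  {R : Λ → (Ell2 ((Γ × Q) × ι) →L[ℂ] Ell2 ((Γ × Q) × ι))} (d : CData D Λ)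

theorem bdl2_map (hR : ARep t R) (v : D) {ξ : Lp (Ell2 ((Γ × Q) × ι)) 2 d.μ}
    (h : ξ ∈ BdL2 d.μ Γ Q ι) : Ri d R v ξ ∈ BdL2 d.μ Γ Q ι := by
  change ∀ᵐ x ∂d.μ, _
  have h0 : ∀ᵐ x ∂d.μ, B2 (ξ x : Ell2 ((Γ × Q) × ι)) := h
  filter_upwards [ri_ae d hR.opNorm_le v ξ, ae_comp (d.mp v⁻¹) h0] with x h1 h2
  rw [h1]
  exact h2.map (hR.ra _) (hR.opNorm_le _)

theorem fst_ind (P : Γ → Prop) : (fun x : Γ × Q => ind P x.1) = ind fun x : Γ × Q => P x.1 := by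
  classical
  funext x
  by_cases h : P x.1
  · rw [ind_pos h, ind_pos (P := fun x : Γ × Q => P x.1) h]
  · rw [ind_neg h, ind_neg (P := fun x : Γ × Q => P x.1) h]

/-- **[C-SEP2]** The separation estimate for the first leg of the induced representation, with
coefficients in the second leg. -/
theorem sep2_ind (hR : ARep t R) :
    SepT (fst (baseL d.μ (Γ × Q) ι)) (Ri d R) (BdL2 d.μ Γ Q ι) where
  ep := fun s a ha i => bdl2_ep s a ha i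
  map := fun v ξ h => bdl2_map d hR v h
  mp := fun F hF ξ h => bdl2_mp hF h
  norm := fun ξ h => bdl2_norm h
  sep := by
    intro u η hη ζ hζ F G P T hF hG h1 h2
    have hη' : ∀ᵐ x ∂d.μ, B2 (η x : Ell2 ((Γ × Q) × ι)) := hη
    have hζ' : ∀ᵐ x ∂d.μ, B2 (ζ x : Ell2 ((Γ × Q) × ι)) := hζ
    have hmv : ∀ v, massA R (fun x : Γ × Q => P x.1) v =
        Real.sqrt (∑ i, ‖mp ι (fun x : Γ × Q => ind P x.1) (R v (ep i))‖ ^ 2) := by
      intro v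
      rw [fst_ind]; rfl
    obtain ⟨f, hf⟩ : ∃ f : d.X → ℝ, f = fun x => massA R (fun x : Γ × Q => P x.1) (d.c u x) :=
      ⟨_, rfl⟩
    have hfm : Measurable f := by
      rw [hf]; exact H859.meas_c d u (fun v => massA R (fun x : Γ × Q => P x.1) v)
    have hf0 : ∀ x, 0 ≤ f x := fun x => by rw [hf]; exact H714.massA_nonneg _ _
    have hfC : ∀ x, f x ≤ Real.sqrt (Fintype.card ι) := fun x => by
      rw [hf]; exact H714.massA_le hR _ _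
    have hfi : Integrable f d.μ :=
      Integrable.of_bound (C := Real.sqrt (Fintype.card ι)) hfm.aestronglyMeasurable
        (Eventually.of_forall fun x => by
          rw [Real.norm_eq_abs, abs_of_nonneg (hf0 x)]; exact hfC x)
    have hfi2 : Integrable (fun x => f x ^ 2) d.μ :=
      Integrable.of_bound (C := Real.sqrt (Fintype.card ι) ^ 2)
        (hfm.pow_const 2).aestronglyMeasurable
        (Eventually.of_forall fun x => by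
          rw [Real.norm_eq_abs, abs_of_nonneg (sq_nonneg _)]
          exact pow_le_pow_left₀ (hf0 x) (hfC x) 2)
    -- the integral of the square of `f` is the mass
    have hmass : ∫ x, f x ^ 2 ∂d.μ =
        massX (fst (baseL d.μ (Γ × Q) ι)) (Ri d R) u (ind P) := by
      rw [massX_fst, fst_ind]
      have e1 := H156.mass_int d hR u (ind fun x : Γ × Q => P x.1) (fun i => ept d.μ i)
        (fun i => ept_ae i)
      have e2 : massX (baseL d.μ (Γ × Q) ι) (Ri d R) u (ind fun x : Γ × Q => P x.1) =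
          ∑ i, (⟪Ri d R u (ept d.μ i), (mp ι (ind fun x : Γ × Q => P x.1)).compLpL 2 d.μ
            (Ri d R u (ept d.μ i))⟫_ℂ).re := rfl
      rw [e2, e1]
      refine integral_congr_ae (Eventually.of_forall fun x => ?_)
      change f x ^ 2 = _
      rw [hf]
      change massA R (fun x : Γ × Q => P x.1) (d.c u x) ^ 2 = _
      rw [H714.massA_sq]
      exact (H859.massR_ind hR (fun x : Γ × Q => P x.1) (d.c u x)).symm
    -- the pointwise estimate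
    have hin : ⟪(fst (baseL d.μ (Γ × Q) ι)).mp G ζ,
        Ri d R u ((fst (baseL d.μ (Γ × Q) ι)).mp F η)⟫_ℂ =
        ∫ x, ⟪mp ι (fun x : Γ × Q => G x.1) (ζ x : Ell2 ((Γ × Q) × ι)),
          R (d.c u (d.act u⁻¹ x)) (mp ι (fun x : Γ × Q => F x.1)
            (η (d.act u⁻¹ x) : Ell2 ((Γ × Q) × ι)))⟫_ℂ ∂d.μ := by
      rw [L2.inner_def]
      refine integral_congr_ae ?_
      filter_upwards [fld_comp (μ := d.μ) (mp ι (fun x : Γ × Q => G x.1) :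
          Ell2 ((Γ × Q) × ι) →L[ℂ] Ell2 ((Γ × Q) × ι)) ζ,
        ri_ae d hR.opNorm_le u ((fst (baseL d.μ (Γ × Q) ι)).mp F η),
        ae_comp (d.mp u⁻¹) (fld_comp (μ := d.μ) (mp ι (fun x : Γ × Q => F x.1) :
          Ell2 ((Γ × Q) × ι) →L[ℂ] Ell2 ((Γ × Q) × ι)) η)] with x a1 a2 a3
      change ⟪((mp ι (fun x : Γ × Q => G x.1) : Ell2 ((Γ × Q) × ι) →L[ℂ]
        Ell2 ((Γ × Q) × ι)).compLpL 2 d.μ ζ) x, _⟫_ℂ = _
      rw [a1, a2]
      change ⟪_, R (d.c u (d.act u⁻¹ x)) (((mp ι (fun x : Γ × Q => F x.1) : Ell2 ((Γ × Q) × ι)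
        →L[ℂ] Ell2 ((Γ × Q) × ι)).compLpL 2 d.μ η) (d.act u⁻¹ x))⟫_ℂ = _
      rw [a3]
    have hb : ‖⟪(fst (baseL d.μ (Γ × Q) ι)).mp G ζ,
        Ri d R u ((fst (baseL d.μ (Γ × Q) ι)).mp F η)⟫_ℂ‖ ≤
        ∫ x, Real.sqrt T.card * f (d.act u⁻¹ x) ∂d.μ := by
      rw [hin]
      refine norm_integral_le_of_norm_le ?_ ?_
      · exact ((d.mp u⁻¹).integrable_comp_of_integrable hfi).const_mul _
      · filter_upwards [hζ', ae_comp (d.mp u⁻¹) hη'] with x a1 a2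
        rw [hf]
        change _ ≤ Real.sqrt T.card * massA R (fun x : Γ × Q => P x.1) (d.c u (d.act u⁻¹ x))
        rw [hmv]
        exact sep2_ptw (hR.ra _) a2 a1 F G P T hF hG h1 h2
    have hch : ∫ x, f (d.act u⁻¹ x) ∂d.μ = ∫ x, f x ∂d.μ := by
      have h3 := (d.mp u⁻¹).map_eq
      have hm : AEStronglyMeasurable f (d.μ.map (d.act u⁻¹)) := hfm.aestronglyMeasurable
      rw [← integral_map (d.mp u⁻¹).measurable.aemeasurable hm, h3]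
    rw [integral_const_mul, hch] at hb
    refine hb.trans ?_
    have hcs := cs_sqrt d.μ hfi hfi2
    rw [hmass] at hcs
    exact mul_le_mul_of_nonneg_left hcs (Real.sqrt_nonneg _)

/-- The same for sets: literally the field `sep` of `H859.CL.Sys`. -/
theorem sep_set (hR : ARep t R) (u : D) {η ζ : Lp (Ell2 ((Γ × Q) × ι)) 2 d.μ}
    (hη : η ∈ BdL2 d.μ Γ Q ι) (hζ : ζ ∈ BdL2 d.μ Γ Q ι) (F G P : Set Γ) (T : Finset Γ)
    (h1 : ∀ x ∈ F, ∀ y ∈ G, x⁻¹ * y ∈ P)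
    (h2 : ∀ x₁ ∈ F, ∀ y₁ ∈ G, ∀ x₂ ∈ F, ∀ y₂ ∈ G, x₁⁻¹ * y₁ = x₂⁻¹ * y₂ → x₂ * x₁⁻¹ ∈ T) :
    ‖⟪(fst (baseL d.μ (Γ × Q) ι)).mp (ind fun x => x ∈ G) ζ,
      Ri d R u ((fst (baseL d.μ (Γ × Q) ι)).mp (ind fun x => x ∈ F) η)⟫_ℂ‖ ≤
      Real.sqrt T.card *
        Real.sqrt (massX (fst (baseL d.μ (Γ × Q) ι)) (Ri d R) u (ind fun x => x ∈ P)) := by
  have hi : ∀ (S : Set Γ) (x : Γ), ind (fun x => x ∈ S) x ≠ 0 → x ∈ S := by
    intro S x hx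
    by_contra h
    exact hx (ind_neg (P := fun x => x ∈ S) h)
  exact (sep2_ind d hR).sep u η hη ζ hζ _ _ (fun x => x ∈ P) T (fun g => abs_ind_le _ g)
    (fun g => abs_ind_le _ g) (fun x y hx hy => h1 x (hi F x hx) y (hi G y hy))
    fun x₁ y₁ x₂ y₂ a1 a2 a3 a4 he => h2 x₁ (hi F x₁ a1) y₁ (hi G y₁ a2) x₂ (hi F x₂ a3) y₂
      (hi G y₂ a4) he

end sep

end Vale.Agent.P092.H357
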