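import Vale.Agent.P092.H357.Sep1
import Vale.Agent.P092.H132.MassX

/-!
P092 (helper357), Teams C and D: the trace inequality on the fibre (bounded vectors for the second
leg) and the symmetry of the masses.
-/

set_option linter.all false

open scoped InnerProductSpace
open Filter Topology ContinuousLinearMap

namespace Vale.Agent.P092.H357

open Vale.Agent.P092.H160 Vale.Agent.P092.H553 Vale.Agent.P092.H432

section fib

variable {Γ Q ι : Type} [Group Γ] [Group Q]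

theorem gen_op {X : Ell2 ((Γ × Q) × ι) →L[ℂ] Ell2 ((Γ × Q) × ι)}
    (hX : ∀ (q : Q) (ξ : Ell2 ((Γ × Q) × ι)), X (lx ((1 : Γ), q) ξ) = lx ((1 : Γ), q) (X ξ))
    {C : Ell2 Q →L[ℂ] Ell2 ((Γ × Q) × ι)} {v : Ell2 ((Γ × Q) × ι)} (h : Gen C v) :
    Gen (X ∘L C) (X v) := by
  intro q
  change X (C (dl q)) = _
  rw [h q, hX]

/-- the block isometry `δ_q ↦ δ_((y,q),l)` -/
noncomputable def blk (p : Γ × ι) : Ell2 Q →L[ℂ] Ell2 ((Γ × Q) × ι) := (gen_dl p.1 1 p.2).choose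

theorem blk_gen (p : Γ × ι) : Gen (blk p) (dl ((p.1, (1 : Q)), p.2) : Ell2 ((Γ × Q) × ι)) :=
  (gen_dl p.1 1 p.2).choose_spec.2

theorem adj_blk (p : Γ × ι) (u : Ell2 ((Γ × Q) × ι)) (q : Q) :
    (adjoint (blk p) u : Ell2 Q) q = u ((p.1, q), p.2) := by
  rw [← inner_dl, adjoint_inner_right, blk_gen p q, lx_dl, Prod.mk_mul_mk, one_mul, mul_one,
    inner_dl]

/-- the reindexing `((x, k), q) ↦ ((x, q), k)` -/
def er' (Γ Q ι : Type) : ((Γ × ι) × Q) ≃ ((Γ × Q) × ι) where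
  toFun z := ((z.1.1, z.2), z.1.2)
  invFun z := ((z.1.1, z.2), z.1.2)
  left_inv z := by simp
  right_inv z := by simp

theorem hasSum_blk {F : Γ → ℝ} (hF : ∀ g, |F g| ≤ 1) (u : Ell2 ((Γ × Q) × ι)) :
    HasSum (fun p : Γ × ι => F p.1 ^ 2 * ‖(adjoint (blk p) u : Ell2 Q)‖ ^ 2)
      (‖mp ι (fun x : Γ × Q => F x.1) u‖ ^ 2) := by
  have h0 : ∀ z : (Γ × Q) × ι, ‖(mp ι (fun x : Γ × Q => F x.1) u : Ell2 ((Γ × Q) × ι)) z‖ ^ 2 =
      F z.1.1 ^ 2 * ‖u z‖ ^ 2 := by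
    intro z
    rw [mp, mo_apply (F := fun x : (Γ × Q) × ι => F x.1.1) (fun x => hF _), norm_mul, mul_pow,
      Complex.norm_real, Real.norm_eq_abs, sq_abs]
  have h1 : HasSum (fun z : (Γ × Q) × ι => F z.1.1 ^ 2 * ‖u z‖ ^ 2)
      (‖mp ι (fun x : Γ × Q => F x.1) u‖ ^ 2) := by
    rw [norm_sq]
    have h2 := (summable_sq (mp ι (fun x : Γ × Q => F x.1) u)).hasSum
    refine (iff_of_eq (congrArg (fun f => HasSum f _) (funext fun z => ?_))).mp h2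
    exact h0 z
  have h3 : HasSum (fun z : (Γ × ι) × Q => F z.1.1 ^ 2 * ‖u ((z.1.1, z.2), z.1.2)‖ ^ 2)
      (‖mp ι (fun x : Γ × Q => F x.1) u‖ ^ 2) := (Equiv.hasSum_iff (er' Γ Q ι)).2 h1
  refine h3.prod_fiberwise fun p => ?_
  refine HasSum.mul_left _ ?_
  rw [norm_sq]
  have h4 := (summable_sq (adjoint (blk p) u : Ell2 Q)).hasSum
  refine (iff_of_eq (congrArg (fun f => HasSum f _) (funext fun q => ?_))).mp h4
  rw [adj_blk]

/-- **The trace inequality.** `‖X m_F v‖² ≤ ∑_{y ∈ F, l} ‖X δ_((y,1),l)‖²` for `X` commuting with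
the translations of the second leg and a bounded vector `v`. -/
theorem hs_le {X : Ell2 ((Γ × Q) × ι) →L[ℂ] Ell2 ((Γ × Q) × ι)}
    (hX : ∀ (q : Q) (ξ : Ell2 ((Γ × Q) × ι)), X (lx ((1 : Γ), q) ξ) = lx ((1 : Γ), q) (X ξ))
    {v : Ell2 ((Γ × Q) × ι)} (hv : B2 v) {F : Γ → ℝ} (hF : ∀ g, |F g| ≤ 1) {M : ℝ}
    (hM : ∀ s : Finset (Γ × ι), (∀ p ∈ s, F p.1 ≠ 0) →
      ∑ p ∈ s, ‖X (dl ((p.1, (1 : Q)), p.2))‖ ^ 2 ≤ M) :
    ‖X (mp ι (fun x : Γ × Q => F x.1) v)‖ ^ 2 ≤ M := by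
  classical
  obtain ⟨C, hC, hCg⟩ := hv
  have hA : Gen (X ∘L (mp ι (fun x : Γ × Q => F x.1) ∘L C))
      (X (mp ι (fun x : Γ × Q => F x.1) v)) := gen_op hX (gen_mp hF hCg)
  have hs := Complex.hasSum_re (hasSum_gen hA hA)
  have e0 : (⟪X (mp ι (fun x : Γ × Q => F x.1) v),
      X (mp ι (fun x : Γ × Q => F x.1) v)⟫_ℂ).re = ‖X (mp ι (fun x : Γ × Q => F x.1) v)‖ ^ 2 := by
    rw [inner_self_eq_norm_sq_to_K]; norm_cast
  rw [e0] at hs
  have hadj : adjoint (mp ι (fun x : Γ × Q => F x.1) : Ell2 ((Γ × Q) × ι) →L[ℂ]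
      Ell2 ((Γ × Q) × ι)) = mp ι (fun x : Γ × Q => F x.1) :=
    adjoint_mo (F := fun x : (Γ × Q) × ι => F x.1.1) (fun x => hF _)
  refine le_of_tendsto hs (Eventually.of_forall fun s => ?_)
  -- first bound
  have b1 : ∀ p : Γ × ι, (⟪(adjoint (X ∘L (mp ι (fun x : Γ × Q => F x.1) ∘L C))
      (dl ((p.1, 1), p.2)) : Ell2 Q), adjoint (X ∘L (mp ι (fun x : Γ × Q => F x.1) ∘L C))
      (dl ((p.1, 1), p.2))⟫_ℂ).re ≤
      ‖mp ι (fun x : Γ × Q => F x.1) (adjoint X (dl ((p.1, (1 : Q)), p.2)))‖ ^ 2 := by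
    intro p
    rw [inner_self_eq_norm_sq_to_K]
    have e1 : (((‖(adjoint (X ∘L (mp ι (fun x : Γ × Q => F x.1) ∘L C))
        (dl ((p.1, 1), p.2)) : Ell2 Q)‖ : ℝ) : ℂ) ^ 2).re =
        ‖(adjoint (X ∘L (mp ι (fun x : Γ × Q => F x.1) ∘L C))
        (dl ((p.1, 1), p.2)) : Ell2 Q)‖ ^ 2 := by norm_cast
    refine e1.le.trans ?_
    refine pow_le_pow_left₀ (norm_nonneg _) ?_ 2
    rw [adjoint_comp, adjoint_comp, hadj]
    simp only [ContinuousLinearMap.comp_apply]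
    refine ((adjoint C).le_opNorm _).trans ?_
    rw [LinearIsometryEquiv.norm_map]
    exact mul_le_of_le_one_left (norm_nonneg _) hC
  refine (Finset.sum_le_sum fun p _ => b1 p).trans ?_
  -- second bound: sum over the blocks
  have h2 : HasSum (fun y : Γ × ι => ∑ p ∈ s, F y.1 ^ 2 *
      ‖(adjoint (blk y) (adjoint X (dl ((p.1, (1 : Q)), p.2))) : Ell2 Q)‖ ^ 2)
      (∑ p ∈ s, ‖mp ι (fun x : Γ × Q => F x.1) (adjoint X (dl ((p.1, (1 : Q)), p.2)))‖ ^ 2) :=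
    hasSum_sum fun p _ => hasSum_blk hF _
  refine le_of_tendsto h2 (Eventually.of_forall fun Y => ?_)
  have h3 : ∀ y : Γ × ι, ∑ p ∈ s, F y.1 ^ 2 *
      ‖(adjoint (blk y) (adjoint X (dl ((p.1, (1 : Q)), p.2))) : Ell2 Q)‖ ^ 2 ≤
      if F y.1 ≠ 0 then ‖X (dl ((y.1, (1 : Q)), y.2))‖ ^ 2 else 0 := by
    intro y
    rw [← Finset.mul_sum]
    by_cases h0 : F y.1 ≠ 0
    · rw [if_pos h0]
      have hG : Gen (X ∘L blk y) (X (dl ((y.1, (1 : Q)), y.2))) := gen_op hX (blk_gen y)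
      have h4 := hG.sum_le s
      rw [adjoint_comp] at h4
      have h5 : F y.1 ^ 2 ≤ 1 := by
        rw [← sq_abs]
        exact pow_le_one₀ (abs_nonneg _) (hF _)
      refine (mul_le_of_le_one_left (Finset.sum_nonneg fun _ _ => by positivity) h5).trans ?_
      exact h4
    · rw [if_neg h0]
      push Not at h0
      rw [h0]
      simp
  refine (Finset.sum_le_sum fun y _ => h3 y).trans ?_
  rw [← Finset.sum_filter]
  exact hM _ fun p hp => (Finset.mem_filter.1 hp).2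

end fib

section sym

open Vale.Agent.P092.H132

variable {Γ ι H D : Type} [Group Γ] [Group D] [Fintype ι] [NormedAddCommGroup H]
    [InnerProductSpace ℂ H] [CompleteSpace H] {B : Base Γ ι H} {t : ℝ} {R : D → (H →L[ℂ] H)}

theorem massX_ind (B : Base Γ ι H) (R : D → (H →L[ℂ] H)) (u : D) (P : Γ → Prop) :
    massX B R u (H553.ind P) = ∑ i, ‖B.mp (H553.ind P) (R u (B.ep i))‖ ^ 2 := by
  rw [← massX_sq B R u (F := H553.ind P) (C := 1) fun g => H553.abs_ind_le _ _]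
  congr 1
  funext g
  by_cases h : P g
  · rw [H553.ind_pos h, one_mul]
  · rw [H553.ind_neg h, zero_mul]

/-- The masses of `R u⁻¹` are the images under inversion of the masses of `R u`. -/
theorem sym_sum (hT : TRep B t R) (u : D) (P : Set Γ) :
    ∑ i, ‖B.mp (H553.ind fun g => g ∈ {g | g⁻¹ ∈ P}) (R u⁻¹ (B.ep i))‖ ^ 2 =
      ∑ i, ‖B.mp (H553.ind fun g => g ∈ P) (R u (B.ep i))‖ ^ 2 := by
  rw [← massX_ind, ← massX_ind, massX_inv_apply hT u (C := 1) fun g => H553.abs_ind_le _ _]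
  congr 1
  funext g
  by_cases h : g ∈ P
  · have h' : g⁻¹ ∈ {g : Γ | g⁻¹ ∈ P} := by
      change g⁻¹⁻¹ ∈ P
      rwa [inv_inv]
    rw [H553.ind_pos (P := fun g => g ∈ P) h, H553.ind_pos (P := fun g => g ∈ {g | g⁻¹ ∈ P}) h']
  · have h' : ¬ g⁻¹ ∈ {g : Γ | g⁻¹ ∈ P} := by
      change ¬ g⁻¹⁻¹ ∈ P
      rwa [inv_inv]
    rw [H553.ind_neg (P := fun g => g ∈ P) h, H553.ind_neg (P := fun g => g ∈ {g | g⁻¹ ∈ P}) h']

/-- For one trace vector: literally `H859.CL.Sym` (with `st mp S = mp (ind (· ∈ S))`). -/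
theorem sym_one [Unique ι] (hT : TRep B t R) (u : D) (P : Set Γ) :
    ‖B.mp (H553.ind fun g => g ∈ {g | g⁻¹ ∈ P}) (R u⁻¹ (B.ep default))‖ =
      ‖B.mp (H553.ind fun g => g ∈ P) (R u (B.ep default))‖ := by
  have h := sym_sum hT u P
  rw [Fintype.sum_unique, Fintype.sum_unique] at h
  exact (pow_left_inj₀ (norm_nonneg _) (norm_nonneg _) two_ne_zero).mp h

end sym

end Vale.Agent.P092.H357
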