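import Vale.Agent.P092.H432.PiA
import Vale.Agent.P092.H553.Balance

/-!
P092 (helper357), Team C, block C-SEP2, part 1: the separation estimate for one leg with
coefficients in the other leg, on the fibre `ℓ²((Γ × Q) × ι)`.

`B2 v`: the vector `v` is bounded with respect to the left translations of the second group, i.e.
`δ_q ↦ lx (1, q) v` extends to a contraction of `ℓ²(Q)`.  For bounded vectors
`⟪a, b⟫ = ∑_(x,k) ⟪B* δ_(x,1,k), A* δ_(x,1,k)⟫`, and Cauchy-Schwarz over `(x, k)` is the separation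
estimate.
-/

set_option linter.all false

open scoped InnerProductSpace
open Filter Topology ContinuousLinearMap

namespace Vale.Agent.P092.H357

open Vale.Agent.P092.H160 Vale.Agent.P092.H553 Vale.Agent.P092.H432

section fib

variable {Γ Q ι : Type} [Group Γ] [Group Q]

/-- `δ_q ↦ lx (1, q) v` -/
def Gen (C : Ell2 Q →L[ℂ] Ell2 ((Γ × Q) × ι)) (v : Ell2 ((Γ × Q) × ι)) : Prop :=
  ∀ q, C (dl q) = lx ((1 : Γ), q) v

/-- bounded vectors -/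
def B2 (v : Ell2 ((Γ × Q) × ι)) : Prop :=
  ∃ C : Ell2 Q →L[ℂ] Ell2 ((Γ × Q) × ι), ‖C‖ ≤ 1 ∧ Gen C v

theorem Gen.coef {C : Ell2 Q →L[ℂ] Ell2 ((Γ × Q) × ι)} {v : Ell2 ((Γ × Q) × ι)} (h : Gen C v)
    (x : Γ) (k : ι) (q : Q) :
    (adjoint C (dl ((x, 1), k)) : Ell2 Q) q = (starRingEnd ℂ) (v ((x, q⁻¹), k)) := by
  rw [← inner_dl, adjoint_inner_right, h q, inner_dl_right, lx_apply]
  simp

theorem Gen.norm_le {C : Ell2 Q →L[ℂ] Ell2 ((Γ × Q) × ι)} {v : Ell2 ((Γ × Q) × ι)}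
    (h : Gen C v) (hC : ‖C‖ ≤ 1) : ‖v‖ ≤ 1 := by
  have h1 := h 1
  have h2 : (lx ((1 : Γ), (1 : Q)) : Ell2 ((Γ × Q) × ι) →L[ℂ] Ell2 ((Γ × Q) × ι)) = 1 := lx_one
  rw [h2] at h1
  have h3 : v = C (dl 1) := h1.symm
  rw [h3]
  refine (C.le_opNorm _).trans ?_
  rw [norm_dl, mul_one]
  exact hC

theorem B2.norm_le {v : Ell2 ((Γ × Q) × ι)} (h : B2 v) : ‖v‖ ≤ 1 := by
  obtain ⟨C, h1, h2⟩ := h
  exact h2.norm_le h1

/-- the reindexing `((x, k), q) ↦ ((x, q⁻¹), k)` -/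
def er (Γ Q ι : Type) [Group Q] : ((Γ × ι) × Q) ≃ ((Γ × Q) × ι) where
  toFun z := ((z.1.1, z.2⁻¹), z.1.2)
  invFun z := ((z.1.1, z.2), z.1.2⁻¹)
  left_inv z := by simp
  right_inv z := by simp

/-- The trace identity. -/
theorem hasSum_gen {A B : Ell2 Q →L[ℂ] Ell2 ((Γ × Q) × ι)} {a b : Ell2 ((Γ × Q) × ι)}
    (hA : Gen A a) (hB : Gen B b) :
    HasSum (fun p : Γ × ι => ⟪(adjoint B (dl ((p.1, 1), p.2)) : Ell2 Q),
      adjoint A (dl ((p.1, 1), p.2))⟫_ℂ) ⟪a, b⟫_ℂ := by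
  have h1 : HasSum (fun z : (Γ × ι) × Q =>
      b (er Γ Q ι z) * (starRingEnd ℂ) (a (er Γ Q ι z))) ⟪a, b⟫_ℂ :=
    (Equiv.hasSum_iff (er Γ Q ι)).2 (hasSum_inner' a b)
  refine h1.prod_fiberwise fun p => ?_
  have h2 := hasSum_inner' (adjoint B (dl ((p.1, 1), p.2)) : Ell2 Q)
    (adjoint A (dl ((p.1, 1), p.2)))
  refine (iff_of_eq (congrArg (fun f => HasSum f _) (funext fun q => ?_))).mp h2
  rw [hA.coef, hB.coef, Complex.conj_conj, mul_comm]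
  rfl

theorem Gen.sum_le {C : Ell2 Q →L[ℂ] Ell2 ((Γ × Q) × ι)} {v : Ell2 ((Γ × Q) × ι)}
    (h : Gen C v) (s : Finset (Γ × ι)) :
    ∑ p ∈ s, ‖(adjoint C (dl ((p.1, 1), p.2)) : Ell2 Q)‖ ^ 2 ≤ ‖v‖ ^ 2 := by
  have h1 : HasSum (fun p : Γ × ι => ‖(adjoint C (dl ((p.1, 1), p.2)) : Ell2 Q)‖ ^ 2)
      (‖v‖ ^ 2) := by
    have h2 := Complex.hasSum_re (hasSum_gen h h)
    have h3 : (⟪v, v⟫_ℂ).re = ‖v‖ ^ 2 := by
      rw [inner_self_eq_norm_sq_to_K]; norm_cast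
    rw [h3] at h2
    refine (iff_of_eq (congrArg (fun f => HasSum f _) (funext fun p => ?_))).mp h2
    rw [inner_self_eq_norm_sq_to_K]; norm_cast
  exact sum_le_hasSum s (fun _ _ => by positivity) h1

theorem gen_map {V : Ell2 ((Γ × Q) × ι) →L[ℂ] Ell2 ((Γ × Q) × ι)} (hV : RA V)
    {C : Ell2 Q →L[ℂ] Ell2 ((Γ × Q) × ι)} {v : Ell2 ((Γ × Q) × ι)} (h : Gen C v) :
    Gen (V ∘L C) (V v) := by
  intro q
  change V (C (dl q)) = _
  rw [h q, hV.app]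

theorem gen_mp {F : Γ → ℝ} {c : ℝ} (hF : ∀ g, |F g| ≤ c) {C : Ell2 Q →L[ℂ] Ell2 ((Γ × Q) × ι)}
    {v : Ell2 ((Γ × Q) × ι)} (h : Gen C v) :
    Gen (mp ι (fun x : Γ × Q => F x.1) ∘L C) (mp ι (fun x : Γ × Q => F x.1) v) := by
  intro q
  change mp ι (fun x : Γ × Q => F x.1) (C (dl q)) = _
  rw [h q, lx_mp (F := fun x : Γ × Q => F x.1) (fun g => hF g.1)]
  congr 3
  funext x
  simp

theorem B2.map {V : Ell2 ((Γ × Q) × ι) →L[ℂ] Ell2 ((Γ × Q) × ι)} (hV : RA V) (hn : ‖V‖ ≤ 1)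
    {v : Ell2 ((Γ × Q) × ι)} (h : B2 v) : B2 (V v) := by
  obtain ⟨C, h1, h2⟩ := h
  refine ⟨V ∘L C, ?_, gen_map hV h2⟩
  refine (ContinuousLinearMap.opNorm_comp_le _ _).trans ?_
  exact mul_le_one₀ hn (norm_nonneg _) h1

theorem B2.mp {F : Γ → ℝ} (hF : ∀ g, |F g| ≤ 1) {v : Ell2 ((Γ × Q) × ι)} (h : B2 v) :
    B2 (mp ι (fun x : Γ × Q => F x.1) v) := by
  obtain ⟨C, h1, h2⟩ := h
  refine ⟨H432.mp ι (fun x : Γ × Q => F x.1) ∘L C, ?_, gen_mp hF h2⟩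
  refine (ContinuousLinearMap.opNorm_comp_le _ _).trans ?_
  refine mul_le_one₀ ?_ (norm_nonneg _) h1
  exact opNorm_mo_le (F := fun x : (Γ × Q) × ι => F x.1.1) (fun x => hF _) zero_le_one

theorem gen_dl (s : Γ) (t : Q) (i : ι) : ∃ C : Ell2 Q →L[ℂ] Ell2 ((Γ × Q) × ι),
    ‖C‖ ≤ 1 ∧ Gen C (dl ((s, t), i)) := by
  classical
  have hinj : Function.Injective (fun q : Q => (((s, q * t), i) : (Γ × Q) × ι)) := by
    intro q q' h
    simpa using h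
  have hB : Bes 1 (fun q : Q => (dl (((s, q * t), i) : (Γ × Q) × ι) : Ell2 ((Γ × Q) × ι))) := by
    intro S v
    rw [one_pow, one_mul]
    have h1 : ∑ q ∈ S, ‖⟪(dl (((s, q * t), i) : (Γ × Q) × ι) : Ell2 ((Γ × Q) × ι)), v⟫_ℂ‖ ^ 2 =
        ∑ z ∈ S.map ⟨_, hinj⟩, ‖v z‖ ^ 2 := by
      rw [Finset.sum_map]
      refine Finset.sum_congr rfl fun q _ => ?_
      rw [inner_dl]; rfl
    rw [h1]
    exact sum_sq_le v _
  refine ⟨opOf hB, ?_, fun q => ?_⟩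
  · have := norm_opOf_le hB
    rwa [abs_one] at this
  · rw [opOf_dl, lx_dl, Prod.mk_mul_mk, one_mul]

theorem b2_dl (s : Γ) (t : Q) (i : ι) : B2 (dl ((s, t), i) : Ell2 ((Γ × Q) × ι)) := gen_dl s t i

theorem b2_neg {v : Ell2 ((Γ × Q) × ι)} (h : B2 v) : B2 (-v) := by
  obtain ⟨C, h1, h2⟩ := h
  refine ⟨-C, by rwa [norm_neg], fun q => ?_⟩
  change -(C (dl q)) = _
  rw [h2 q, map_neg]

theorem b2_smul {v : Ell2 ((Γ × Q) × ι)} (h : B2 v) {c : ℂ} (hc : ‖c‖ ≤ 1) : B2 (c • v) := by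
  obtain ⟨C, h1, h2⟩ := h
  refine ⟨c • C, ?_, fun q => ?_⟩
  · rw [norm_smul]
    exact mul_le_one₀ hc (norm_nonneg _) h1
  · change c • (C (dl q)) = _
    rw [h2 q, map_smul]

theorem b2_half {v w : Ell2 ((Γ × Q) × ι)} (hv : B2 v) (hw : B2 w) {c : ℂ} (hc : ‖c‖ ≤ 2⁻¹) :
    B2 (c • (v + w)) := by
  obtain ⟨C, h1, h2⟩ := hv
  obtain ⟨D, h3, h4⟩ := hw
  refine ⟨c • (C + D), ?_, fun q => ?_⟩
  · rw [norm_smul]
    have h5 : ‖C + D‖ ≤ 2 := (norm_add_le _ _).trans (by linarith)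
    calc ‖c‖ * ‖C + D‖ ≤ 2⁻¹ * 2 := by gcongr
      _ = 1 := by norm_num
  · change c • (C (dl q) + D (dl q)) = _
    rw [h2 q, h4 q, map_smul, map_add]

theorem b2_zero : B2 (0 : Ell2 ((Γ × Q) × ι)) :=
  ⟨0, by rw [norm_zero]; exact zero_le_one, fun q => by rw [map_zero]; rfl⟩

theorem norm_sq_sum_dl (s : Finset Q) (a : Q → ℂ) :
    ‖∑ q ∈ s, a q • (dl q : Ell2 Q)‖ ^ 2 = ∑ q ∈ s, ‖a q‖ ^ 2 := by
  classical
  have h : ∀ x : Q, (∑ q ∈ s, a q • (dl q : Ell2 Q) : Ell2 Q) x = if x ∈ s then a x else 0 := by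
    intro x
    rw [← inner_dl, inner_sum]
    simp only [inner_smul_right, inner_dl, dl_apply]
    simp
  rw [norm_sq, tsum_eq_sum (s := s)]
  · refine Finset.sum_congr rfl fun x hx => ?_
    rw [h x, if_pos hx]
  · intro x hx
    rw [h x, if_neg hx]
    simp

/-- Bounded vectors through finite sums. -/
theorem b2_iff {v : Ell2 ((Γ × Q) × ι)} : B2 v ↔ ∀ (s : Finset Q) (a : Q → ℂ),
    ‖∑ q ∈ s, a q • lx ((1 : Γ), q) v‖ ^ 2 ≤ ∑ q ∈ s, ‖a q‖ ^ 2 := by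
  constructor
  · rintro ⟨C, hC, h⟩ s a
    have e : ∑ q ∈ s, a q • lx ((1 : Γ), q) v = C (∑ q ∈ s, a q • (dl q : Ell2 Q)) := by
      rw [map_sum]
      refine Finset.sum_congr rfl fun q _ => ?_
      rw [map_smul, h q]
    rw [e, ← norm_sq_sum_dl]
    refine pow_le_pow_left₀ (norm_nonneg _) ?_ 2
    exact (C.le_opNorm _).trans (mul_le_of_le_one_left (norm_nonneg _) hC)
  · intro h
    have hB : Bes 1 (fun q : Q => (lx ((1 : Γ), q) v : Ell2 ((Γ × Q) × ι))) := by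
      intro s w
      rw [one_pow, one_mul]
      obtain ⟨S, hS⟩ : ∃ S : ℝ, S = ∑ q ∈ s, ‖⟪(lx ((1 : Γ), q) v : Ell2 ((Γ × Q) × ι)), w⟫_ℂ‖ ^ 2 :=
        ⟨_, rfl⟩
      obtain ⟨a, ha⟩ : ∃ a : Q → ℂ, a = fun q => ⟪(lx ((1 : Γ), q) v : Ell2 ((Γ × Q) × ι)), w⟫_ℂ :=
        ⟨_, rfl⟩
      have haS : ∑ q ∈ s, ‖a q‖ ^ 2 = S := by rw [hS, ha]
      obtain ⟨u, hu⟩ : ∃ u, u = ∑ q ∈ s, a q • (lx ((1 : Γ), q) v : Ell2 ((Γ × Q) × ι)) := ⟨_, rfl⟩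
      have h1 : ‖u‖ ^ 2 ≤ S := by rw [hu, ← haS]; exact h s a
      have h2 : ⟪u, w⟫_ℂ = ((S : ℝ) : ℂ) := by
        rw [hu, sum_inner, ← haS, Complex.ofReal_sum]
        refine Finset.sum_congr rfl fun q _ => ?_
        rw [inner_smul_left, ha]
        simp only
        rw [mul_comm, Complex.mul_conj, Complex.normSq_eq_norm_sq]
      have hS0 : 0 ≤ S := by rw [hS]; exact Finset.sum_nonneg fun _ _ => by positivity
      have h3 : S ≤ ‖u‖ * ‖w‖ := by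
        have h4 := norm_inner_le_norm (𝕜 := ℂ) u w
        rw [h2, Complex.norm_real, Real.norm_of_nonneg hS0] at h4
        exact h4
      rw [← hS]
      have h5 : S ^ 2 ≤ S * ‖w‖ ^ 2 := by
        calc S ^ 2 ≤ (‖u‖ * ‖w‖) ^ 2 := pow_le_pow_left₀ hS0 h3 2
          _ = ‖u‖ ^ 2 * ‖w‖ ^ 2 := mul_pow _ _ _
          _ ≤ S * ‖w‖ ^ 2 := by gcongr
      by_cases hz : S = 0
      · rw [hz]; positivity
      · have : 0 < S := lt_of_le_of_ne hS0 (Ne.symm hz)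
        nlinarith
    refine ⟨opOf hB, ?_, fun q => opOf_dl hB q⟩
    have := norm_opOf_le hB
    rwa [abs_one] at this

variable [Fintype ι]

/-- The counting estimate. -/
theorem count_le (w : ι → Ell2 ((Γ × Q) × ι)) (F G : Γ → ℝ) (P : Γ → Prop) (T : Finset Γ)
    (hG : ∀ g, |G g| ≤ 1)
    (h1 : ∀ x y, F x ≠ 0 → G y ≠ 0 → P (x⁻¹ * y))
    (h2 : ∀ x₁ y₁ x₂ y₂, F x₁ ≠ 0 → G y₁ ≠ 0 → F x₂ ≠ 0 → G y₂ ≠ 0 →
      x₁⁻¹ * y₁ = x₂⁻¹ * y₂ → x₂ * x₁⁻¹ ∈ T) (s : Finset (Γ × ι)) (hs : ∀ p ∈ s, F p.1 ≠ 0) :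
    ∑ p ∈ s, ‖mp ι (fun x : Γ × Q => G x.1) (lx (p.1, (1 : Q)) (w p.2))‖ ^ 2 ≤
      T.card * ∑ i, ‖mp ι (fun x : Γ × Q => ind P x.1) (w i)‖ ^ 2 := by
  classical
  have e1 : ∀ p : Γ × ι, ‖mp ι (fun x : Γ × Q => G x.1) (lx (p.1, (1 : Q)) (w p.2))‖ ^ 2 =
      ∑' z : (Γ × Q) × ι, G (p.1 * z.1.1) ^ 2 * ‖w p.2 z‖ ^ 2 := by
    intro p
    have h3 : mp ι (fun x : Γ × Q => G x.1) (lx (p.1, (1 : Q)) (w p.2)) =
        lx (p.1, (1 : Q)) (mp ι (fun x : Γ × Q => G (p.1 * x.1)) (w p.2)) := by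
      rw [lx_mp (F := fun x : Γ × Q => G (p.1 * x.1)) (fun g => hG _)]
      congr 2
      funext x
      simp
    rw [h3, norm_lx, norm_sq]
    refine tsum_congr fun z => ?_
    rw [mp, mo_apply (F := fun x : (Γ × Q) × ι => G (p.1 * x.1.1)) (fun x => hG _), norm_mul,
      mul_pow, Complex.norm_real, Real.norm_eq_abs, sq_abs]
  have e2 : ∀ i : ι, ‖mp ι (fun x : Γ × Q => ind P x.1) (w i)‖ ^ 2 =
      ∑' z : (Γ × Q) × ι, ind P z.1.1 * ‖w i z‖ ^ 2 := by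
    intro i
    rw [norm_sq]
    refine tsum_congr fun z => ?_
    rw [mp, mo_apply (F := fun x : (Γ × Q) × ι => ind P x.1.1) (fun x => abs_ind_le _ _), norm_mul,
      mul_pow, Complex.norm_real, Real.norm_eq_abs, sq_abs]
    by_cases h : P z.1.1
    · rw [ind_pos h]; ring
    · rw [ind_neg h]; ring
  have hsum : ∀ (i : ι) (f : (Γ × Q) × ι → ℝ), (∀ z, 0 ≤ f z ∧ f z ≤ 1) →
      Summable fun z => f z * ‖w i z‖ ^ 2 := by
    intro i f hf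
    refine Summable.of_nonneg_of_le (fun z => mul_nonneg (hf z).1 (by positivity)) (fun z => ?_)
      (summable_sq (w i))
    exact mul_le_of_le_one_left (by positivity) (hf z).2
  have hG1 : ∀ g, 0 ≤ G g ^ 2 ∧ G g ^ 2 ≤ 1 := fun g => by
    refine ⟨sq_nonneg _, ?_⟩
    rw [← sq_abs]
    exact pow_le_one₀ (abs_nonneg _) (hG g)
  -- bound the sum over `s` by the sum over a rectangle
  obtain ⟨S, hS⟩ : ∃ S : Finset Γ, S = s.image Prod.fst := ⟨_, rfl⟩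
  have hSF : ∀ x ∈ S, F x ≠ 0 := by
    intro x hx
    rw [hS, Finset.mem_image] at hx
    obtain ⟨p, hp, rfl⟩ := hx
    exact hs p hp
  have h3 : ∑ p ∈ s, ‖mp ι (fun x : Γ × Q => G x.1) (lx (p.1, (1 : Q)) (w p.2))‖ ^ 2 ≤
      ∑ p ∈ S ×ˢ (Finset.univ : Finset ι),
        ‖mp ι (fun x : Γ × Q => G x.1) (lx (p.1, (1 : Q)) (w p.2))‖ ^ 2 := by
    refine Finset.sum_le_sum_of_subset_of_nonneg ?_ fun _ _ _ => by positivity
    intro p hp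
    rw [Finset.mem_product]
    refine ⟨?_, Finset.mem_univ _⟩
    rw [hS]
    exact Finset.mem_image_of_mem _ hp
  refine h3.trans ?_
  rw [Finset.sum_product_right, Finset.mul_sum]
  refine Finset.sum_le_sum fun i _ => ?_
  have e3 : ∑ x ∈ S, ‖mp ι (fun x : Γ × Q => G x.1) (lx (x, (1 : Q)) (w i))‖ ^ 2 =
      ∑' z : (Γ × Q) × ι, ∑ x ∈ S, G (x * z.1.1) ^ 2 * ‖w i z‖ ^ 2 := by
    rw [Summable.tsum_finsetSum fun x _ => hsum i _ fun z => hG1 _]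
    exact Finset.sum_congr rfl fun x _ => e1 (x, i)
  rw [e3, e2 i, ← tsum_mul_left]
  refine Summable.tsum_le_tsum (fun z => ?_) ?_ ?_
  · rw [← Finset.sum_mul, ← mul_assoc]
    refine mul_le_mul_of_nonneg_right ?_ (by positivity)
    by_cases hz : ∃ x ∈ S, G (x * z.1.1) ≠ 0
    · obtain ⟨x₀, hx₀, hx₀'⟩ := hz
      have hP : P z.1.1 := by
        have := h1 x₀ (x₀ * z.1.1) (hSF x₀ hx₀) hx₀'
        rwa [inv_mul_cancel_left] at this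
      rw [ind_pos hP, mul_one]
      have h4 : ∑ x ∈ S, G (x * z.1.1) ^ 2 ≤ ∑ x ∈ S.filter (fun x => G (x * z.1.1) ≠ 0), 1 := by
        rw [Finset.sum_filter]
        refine Finset.sum_le_sum fun x _ => ?_
        by_cases hx : G (x * z.1.1) ≠ 0
        · rw [if_pos hx]; exact (hG1 _).2
        · push Not at hx
          rw [hx]; simp
      refine h4.trans ?_
      rw [Finset.sum_const, nsmul_eq_mul, mul_one]
      norm_cast
      refine Finset.card_le_card_of_injOn (fun x => x * x₀⁻¹) (fun x hx => ?_) ?_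
      · rw [Finset.mem_coe, Finset.mem_filter] at hx
        refine h2 x₀ (x₀ * z.1.1) x (x * z.1.1) (hSF _ hx₀) hx₀' (hSF _ hx.1) hx.2 ?_
        rw [inv_mul_cancel_left, inv_mul_cancel_left]
      · intro x _ y _ hxy
        exact mul_right_cancel hxy
    · push Not at hz
      rw [Finset.sum_eq_zero fun x hx => by rw [hz x hx]; simp]
      exact mul_nonneg (Nat.cast_nonneg _) (ind_nonneg _ _)
  · exact summable_sum fun x _ => hsum i _ fun z => hG1 _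
  · refine (hsum i _ fun z => ?_).mul_left _
    exact ⟨ind_nonneg _ _, (le_abs_self _).trans (abs_ind_le _ _)⟩

/-- **The separation estimate on the fibre.** -/
theorem sep2_ptw {V : Ell2 ((Γ × Q) × ι) →L[ℂ] Ell2 ((Γ × Q) × ι)} (hV : RA V)
    {η ζ : Ell2 ((Γ × Q) × ι)} (hη : B2 η) (hζ : B2 ζ) (F G : Γ → ℝ) (P : Γ → Prop) (T : Finset Γ)
    (hF : ∀ g, |F g| ≤ 1) (hG : ∀ g, |G g| ≤ 1)
    (h1 : ∀ x y, F x ≠ 0 → G y ≠ 0 → P (x⁻¹ * y))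
    (h2 : ∀ x₁ y₁ x₂ y₂, F x₁ ≠ 0 → G y₁ ≠ 0 → F x₂ ≠ 0 → G y₂ ≠ 0 →
      x₁⁻¹ * y₁ = x₂⁻¹ * y₂ → x₂ * x₁⁻¹ ∈ T) :
    ‖⟪mp ι (fun x : Γ × Q => G x.1) ζ, V (mp ι (fun x : Γ × Q => F x.1) η)⟫_ℂ‖ ≤
      Real.sqrt T.card *
        Real.sqrt (∑ i, ‖mp ι (fun x : Γ × Q => ind P x.1) (V (ep i))‖ ^ 2) := by
  classical
  obtain ⟨C, hC, hCg⟩ := hη
  obtain ⟨D, hD, hDg⟩ := hζ
  have hF' : ∀ x : Γ × Q, |F x.1| ≤ 1 := fun x => hF _
  have hG' : ∀ x : Γ × Q, |G x.1| ≤ 1 := fun x => hG _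
  have hA : Gen (adjoint V ∘L (mp ι (fun x : Γ × Q => G x.1) ∘L D))
      (adjoint V (mp ι (fun x : Γ × Q => G x.1) ζ)) := gen_map (ra_adjoint hV) (gen_mp hG hDg)
  have hB := gen_mp hF hCg
  have hs := hasSum_gen hA hB
  rw [adjoint_inner_left] at hs
  -- bound the finite sums
  have hadj : ∀ (F : Γ → ℝ), (∀ g, |F g| ≤ 1) →
      adjoint (mp ι (fun x : Γ × Q => F x.1) : Ell2 ((Γ × Q) × ι) →L[ℂ] Ell2 ((Γ × Q) × ι)) =
        mp ι (fun x : Γ × Q => F x.1) := fun F hF =>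
    adjoint_mo (F := fun x : (Γ × Q) × ι => F x.1.1) (fun x => hF _)
  have hmpdl : ∀ p : Γ × ι, mp ι (fun x : Γ × Q => F x.1) (dl ((p.1, (1 : Q)), p.2)) =
      (F p.1 : ℂ) • (dl ((p.1, (1 : Q)), p.2) : Ell2 ((Γ × Q) × ι)) := by
    intro p
    ext z
    rw [mp, mo_apply (F := fun x : (Γ × Q) × ι => F x.1.1) (fun x => hF _), lp.coeFn_smul,
      Pi.smul_apply, smul_eq_mul]
    by_cases hz : z = ((p.1, (1 : Q)), p.2)
    · rw [hz]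
    · rw [dl_ne hz, mul_zero, mul_zero]
  have hterm : ∀ p : Γ × ι,
      ‖⟪(adjoint (mp ι (fun x : Γ × Q => F x.1) ∘L C) (dl ((p.1, 1), p.2)) : Ell2 Q),
        adjoint (adjoint V ∘L (mp ι (fun x : Γ × Q => G x.1) ∘L D)) (dl ((p.1, 1), p.2))⟫_ℂ‖ ≤
      ‖(adjoint C (dl ((p.1, 1), p.2)) : Ell2 Q)‖ *
        (if F p.1 ≠ 0 then
          ‖mp ι (fun x : Γ × Q => G x.1) (lx (p.1, (1 : Q)) (V (ep p.2)))‖ else 0) := by
    intro p
    rw [adjoint_comp, adjoint_comp, adjoint_comp, adjoint_adjoint, hadj F hF, hadj G hG]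
    simp only [ContinuousLinearMap.comp_apply]
    rw [hmpdl p, map_smul]
    have e1 : V (dl ((p.1, (1 : Q)), p.2)) = lx (p.1, (1 : Q)) (V (ep p.2)) := by
      rw [← hV.app, lx_ep]
    rw [e1, inner_smul_left, norm_mul]
    by_cases h0 : F p.1 ≠ 0
    · rw [if_pos h0]
      have b1 : ‖(starRingEnd ℂ) ((F p.1 : ℝ) : ℂ)‖ ≤ 1 := by
        rw [Complex.conj_ofReal, Complex.norm_real]; exact hF _
      have b2 : ‖(adjoint D (mp ι (fun x : Γ × Q => G x.1)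
          (lx (p.1, (1 : Q)) (V (ep p.2)))) : Ell2 Q)‖ ≤
          ‖mp ι (fun x : Γ × Q => G x.1) (lx (p.1, (1 : Q)) (V (ep p.2)))‖ := by
        refine ((adjoint D).le_opNorm _).trans ?_
        rw [LinearIsometryEquiv.norm_map]
        exact mul_le_of_le_one_left (norm_nonneg _) hD
      calc _ ≤ 1 * (‖(adjoint C (dl ((p.1, 1), p.2)) : Ell2 Q)‖ *
            ‖(adjoint D (mp ι (fun x : Γ × Q => G x.1)
              (lx (p.1, (1 : Q)) (V (ep p.2)))) : Ell2 Q)‖) := by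
            gcongr
            exact norm_inner_le_norm _ _
        _ ≤ _ := by rw [one_mul]; gcongr
    · push Not at h0
      rw [h0]
      simp
  have hbound : ∀ s : Finset (Γ × ι),
      ‖∑ p ∈ s, ⟪(adjoint (mp ι (fun x : Γ × Q => F x.1) ∘L C) (dl ((p.1, 1), p.2)) : Ell2 Q),
        adjoint (adjoint V ∘L (mp ι (fun x : Γ × Q => G x.1) ∘L D)) (dl ((p.1, 1), p.2))⟫_ℂ‖ ≤
      Real.sqrt T.card *
        Real.sqrt (∑ i, ‖mp ι (fun x : Γ × Q => ind P x.1) (V (ep i))‖ ^ 2) := by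
    intro s
    refine (norm_sum_le _ _).trans ((Finset.sum_le_sum fun p _ => hterm p).trans ?_)
    refine (Real.sum_mul_le_sqrt_mul_sqrt _ _ _).trans ?_
    have c1 : Real.sqrt (∑ p ∈ s, ‖(adjoint C (dl ((p.1, 1), p.2)) : Ell2 Q)‖ ^ 2) ≤ 1 := by
      rw [Real.sqrt_le_one]
      exact (hCg.sum_le s).trans (pow_le_one₀ (norm_nonneg _) (hCg.norm_le hC))
    have c2 : ∑ p ∈ s, (if F p.1 ≠ 0 then
          ‖mp ι (fun x : Γ × Q => G x.1) (lx (p.1, (1 : Q)) (V (ep p.2)))‖ else 0) ^ 2 ≤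
        T.card * ∑ i, ‖mp ι (fun x : Γ × Q => ind P x.1) (V (ep i))‖ ^ 2 := by
      have c3 : ∑ p ∈ s, (if F p.1 ≠ 0 then
          ‖mp ι (fun x : Γ × Q => G x.1) (lx (p.1, (1 : Q)) (V (ep p.2)))‖ else 0) ^ 2 =
          ∑ p ∈ s.filter (fun p => F p.1 ≠ 0),
            ‖mp ι (fun x : Γ × Q => G x.1) (lx (p.1, (1 : Q)) (V (ep p.2)))‖ ^ 2 := by
        rw [Finset.sum_filter]
        refine Finset.sum_congr rfl fun p _ => ?_
        by_cases h0 : F p.1 ≠ 0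
        · rw [if_pos h0, if_pos h0]
        · rw [if_neg h0, if_neg h0]; norm_num
      rw [c3]
      exact count_le (fun i => V (ep i)) F G P T hG h1 h2 _ fun p hp => (Finset.mem_filter.1 hp).2
    calc _ ≤ 1 * Real.sqrt (T.card * ∑ i, ‖mp ι (fun x : Γ × Q => ind P x.1) (V (ep i))‖ ^ 2) := by
          gcongr
      _ = _ := by rw [one_mul, Real.sqrt_mul (Nat.cast_nonneg _)]
  exact le_of_tendsto hs.norm (Eventually.of_forall hbound)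

end fib

end Vale.Agent.P092.H357
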